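import Vale.Agent.P181.DU.Defs2
import Vale.Agent.P181.DU.Shift

set_option autoImplicit false

/-!
# P181, DN: the theorem near the diagonal for every `b ≥ a + 1`

Only the flow changes: all targets have exactly `a + 1` letters in all (`b ≤ a + K + 2`; for
`b ≥ a + K + 2` it is `FlowW`). `H = K + 2` is the width of the windows and the joint shift.
-/

open MvPolynomial

namespace Vale.Agent.P181.DN

open Vale.Agent.P181.T4 (HW ex low)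
open Vale.Agent.P181.H280 (plethMult)
open Vale.Agent.P181.H463 (gt)
open Vale.Agent.P181.SZ (TI)
open Vale.Agent.P181.PL (dn)
open Vale.Agent.P181.DG
open Vale.Agent.P181.DU.S317 (ShG BadW GoodW FlowW)

/-- The window `W_i = (a - (i + 1) H, a - i H]`, `H = K + 2`. -/
def Win (a K i y : ℕ) : Prop := a < y + (i + 1) * (K + 2) ∧ y + i * (K + 2) ≤ a

/-- Sources: a letter larger than `a`, all letters at most `b`, exactly `n` letters in all. -/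
def SrcN (a b n : ℕ) (p : Multiset ℕ × ℕ) : Prop :=
  (∃ x ∈ p.1, a < x) ∧ (∀ x ∈ p.1, x ≤ b) ∧ 1 ≤ p.2 ∧ Multiset.card p.1 + p.2 = n

/-- One of the windows `W_0, .., W_K` contains no letter. -/
def GapN (a K : ℕ) (p : Multiset ℕ × ℕ) : Prop := ∃ i ≤ K, ∀ y ∈ p.1, ¬ Win a K i y

/-- Targets: all letters at most `a`, exactly `a + 1` letters in all. -/
def TgtN (a : ℕ) (p : Multiset ℕ × ℕ) : Prop :=
  (∀ x ∈ p.1, x ≤ a) ∧ Multiset.card p.1 + p.2 = a + 1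

/-- The capacity of the receptacle after `j` transfers. -/
def capN (a K j : ℕ) : ℕ := 3 * a / 8 + j * ((K + 3) * (K + 2) + a / (16 * (K + 1)))

/-- Marked states `(u; kap; t)` (the state is `(u :: kap, t)`): `a + 1` letters in all, all at
most `a`, `a / 8 ≤ u ≤ capN a K j`, and `W_i` contains a letter of `kap` for `j < i ≤ K + 1`. -/
def MkN (a K w j : ℕ) (q : ℕ × (Multiset ℕ × ℕ)) : Prop :=
  a ≤ 8 * q.1 ∧ q.1 ≤ capN a K j ∧ q.1 + q.2.1.sum ≤ w ∧ (∀ x ∈ q.2.1, x ≤ a) ∧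
    Multiset.card q.2.1 + q.2.2 = a ∧ 1 ≤ q.2.2 ∧
    ∀ i, j < i → i ≤ K + 1 → ∃ y ∈ q.2.1, Win a K i y

/-- The numerical hypotheses. -/
def NumN (a J S K X w : ℕ) : Prop := 2 ≤ K ∧ 40 * K ≤ X ∧ X ^ 2 ≤ S ∧ w * X ^ 2 ≤ S ^ 2 ∧
  4 * ((w + 1) * (a + 2) ^ 2) ≤ X ^ K ∧ (2 * K + 3) * S ≤ J ∧ J + 1 ≤ a ∧ 32 * (K * S) ≤ a

open scoped Classical in
/-- **(FN1)** few letters in all: `K` codes in `[S, 2 S)`, `a + 1 - K - n ≥ 2` units, joint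
shift with receptacle the first code. -/
def FN1 : Prop := ∀ (g : Multiset ℕ → ℕ → ℕ) (a b n J S K X w : ℕ), DisG S g → ShG g →
  NumN a J S K X w → a + 1 ≤ b → b ≤ a + K + 2 → J ≤ n → n + K + 1 ≤ a →
  6 * (a + 1) * ∑ p ∈ (KT w S ×ˢ Finset.range (a + 2)).filter (SrcN a b n), g p.1 p.2 ≤
    ∑ p ∈ (KT w S ×ˢ Finset.range (a + 2)).filter (TgtN a), g p.1 p.2

open scoped Classical in
/-- **(FN2a)** about `a` letters in all, a gap near `a`: dissolve the largest letter into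
`x', u` (`n = a - 1`: `x', u, v`), joint shift. -/
def FN2a : Prop := ∀ (g : Multiset ℕ → ℕ → ℕ) (a b n J S K X w : ℕ), DisG S g → ShG g →
  NumN a J S K X w → a + 1 ≤ b → b ≤ a + K + 2 → n ≤ a → a ≤ n + K →
  24 * (K + 1) * ∑ p ∈ (KT w S ×ˢ Finset.range (a + 2)).filter
      (fun p => SrcN a b n p ∧ GapN a K p), g p.1 p.2 ≤
    ∑ p ∈ (KT w S ×ˢ Finset.range (a + 2)).filter (TgtN a), g p.1 p.2

open scoped Classical in
/-- **(FN2b)** the same without a gap near `a`, into the marked states. -/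
def FN2b : Prop := ∀ (g : Multiset ℕ → ℕ → ℕ) (a b n J S K X w : ℕ), DisG S g → ShG g →
  NumN a J S K X w → a + 1 ≤ b → b ≤ a + K + 2 → n ≤ a → a ≤ n + K →
  ∑ p ∈ (KT w S ×ˢ Finset.range (a + 2)).filter
      (fun p => SrcN a b n p ∧ ¬ GapN a K p), g p.1 p.2 ≤
    16 * ∑ q ∈ (Finset.range (w + 1) ×ˢ (KT w S ×ˢ Finset.range (a + 2))).filter
      (MkN a K w 0), g (q.1 ::ₘ q.2.1) q.2.2

open scoped Classical in
/-- **(FN3)** one transfer: the largest letter in `W_(j+1)` gives `z` units to `u`. -/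
def FN3 : Prop := ∀ (g : Multiset ℕ → ℕ → ℕ) (a J S K X w j : ℕ), ShG g →
  NumN a J S K X w → j ≤ K →
  X * ∑ q ∈ (Finset.range (w + 1) ×ˢ (KT w S ×ˢ Finset.range (a + 2))).filter
      (MkN a K w j), g (q.1 ::ₘ q.2.1) q.2.2 ≤
    ∑ q ∈ (Finset.range (w + 1) ×ˢ (KT w S ×ˢ Finset.range (a + 2))).filter
      (MkN a K w (j + 1)), g (q.1 ::ₘ q.2.1) q.2.2

open scoped Classical in
/-- **(FN4)** forgetting the mark. -/
def FN4 : Prop := ∀ (g : Multiset ℕ → ℕ → ℕ) (a J S K X w : ℕ), NumN a J S K X w →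
  ∑ q ∈ (Finset.range (w + 1) ×ˢ (KT w S ×ˢ Finset.range (a + 2))).filter
      (MkN a K w (K + 1)), g (q.1 ::ₘ q.2.1) q.2.2 ≤
    (w + 1) * ∑ p ∈ (KT w S ×ˢ Finset.range (a + 2)).filter (TgtN a), g p.1 p.2

open scoped Classical in
/-- **(FN)** the flow: `FlowW` for every `b ≥ a + 1`. -/
def FlowN : Prop := ∀ (g : Multiset ℕ → ℕ → ℕ) (a b J S K X w : ℕ), DisG S g → ShG g →
  NumN a J S K X w → a + 1 ≤ b →
  3 * ∑ p ∈ (KT w S ×ˢ Finset.range (a + 2)).filter (BadW a b J), g p.1 p.2 ≤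
    ∑ p ∈ (KT w S ×ˢ Finset.range (a + 2)).filter (GoodW a b), g p.1 p.2

/-- **(AN)** the assembly: `DU.AsmV` with `a + 1 ≤ b` instead of
`a * a + (6 * K + 2) * w ≤ a * b`. -/
def AsmN : Prop := ∀ (a b n R X Z K w a0 b0 : ℕ) (lam nu : Fin n → ℕ), Antitone lam →
  ∑ i, lam i = a * b → ((∀ i, 0 < lam i) ∨ n ≤ Z * X ^ 2) → 1 ≤ R → R + 1 < n →
  w = dn lam 1 → Z ^ 2 ≤ w → w < (Z + 1) ^ 2 →
  1 ≤ K → 128 * K + 128 ≤ X → X ≤ Z → 4 * w ≤ X ^ K → 100 * K * ((Z + 1) * X) ≤ a →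
  a + 1 ≤ b → Z * X ^ 2 + 2 ≤ a → 1 ≤ a0 → a0 < a →
  a + a0 * (a0 + 2) ≤ w → 3 * (b0 + 1) ≤ a →
  (∀ i : Fin n, 1 ≤ (i : ℕ) → nu i ≤ lam i) →
  (∀ i : Fin n, 1 ≤ (i : ℕ) → ex lam ((i : ℕ) + 1) ≤ nu i) → w = dn nu 1 + a →
  (n ≤ Z * X ^ 2 → 2 * ((w + 1) ^ ((R + 1) * (Z * X ^ 2)) *
    gt (n - R) (Z * X ^ 2 + 1) (low R nu)) ≤ plethMult b0 a0 n nu) →
  plethMult a b n lam ≤ plethMult b a n lam

/-- The hypotheses: `DU.HyV` with `a + 1 ≤ b` instead of `a * a + X * dn lam 1 ≤ a * b`. -/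
def HyN (a b n X : ℕ) (lam : Fin n → ℕ) : Prop :=
  Antitone lam ∧ ∑ i, lam i = a * b ∧ (∀ i, 0 < lam i) ∧ n ≤ a ∧ a + 1 ≤ b ∧ b ≤ 5 * a ∧
    X ^ 20000 ≤ a ∧ 10 ^ 12 * (1 + Real.log a) ^ 7 ≤ X ∧
    dn lam 1 * X ^ 6000 ≤ dn lam 2 ^ 2 ∧ a < ex lam 1 ∧ (2 * X + 1) * a ≤ X * dn lam 1 ∧
    dn lam 1 * X ^ 13000 ≤ a ^ 2

/-- **(DN)** the theorem: every `b ≥ a`. -/
def DiagN : Prop := ∃ (C : ℝ) (c : ℕ), 0 < C ∧ ∀ a b : ℕ, a ≤ b →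
  ∀ (n : ℕ) (lam : Fin n → ℕ),
  (dn lam 1 ≤ b ∨ 2 * (a : ℝ) + a / (1 + Real.log a) ^ 7 ≤ dn lam 1) →
  C * (1 + Real.log a) ^ c * (dn lam 1 : ℝ) ≤ (a : ℝ) ^ 2 →
  (C * (1 + Real.log a) ^ c * (dn lam 1 : ℝ) ≤ (dn lam 2 : ℝ) ^ 2 ∨ a + dn lam 2 ≤ b + 1) →
  plethMult a b n lam ≤ plethMult b a n lam

end Vale.Agent.P181.DN
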